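import Vale.Agent.P243.Half.Shapes

/-
Eight cylinders covering the tetrahedron.
-/

namespace Vale.Agent.P243.Half

open MeasureTheory Set
open scoped ENNReal

/-- The linear functional with coefficients `a b c`. -/
noncomputable def form (a b c : ℝ) : Space →ₗ[ℝ] ℝ where
  toFun x := a * x 0 + b * x 1 + c * x 2
  map_add' x y := by simp; ring
  map_smul' s x := by simp; ring

@[simp] lemma form_apply (a b c : ℝ) (x : Space) :
    form a b c x = a * x 0 + b * x 1 + c * x 2 := rfl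

/-- The point with coordinates `a b c`. -/
noncomputable def vec (a b c : ℝ) : Space := WithLp.toLp 2 ![a, b, c]

@[simp] lemma vec_zero (a b c : ℝ) : vec a b c 0 = a := rfl
@[simp] lemma vec_one (a b c : ℝ) : vec a b c 1 = b := rfl
@[simp] lemma vec_two (a b c : ℝ) : vec a b c 2 = c := rfl

/-- The eight axis vectors, not yet normalised. -/
noncomputable def axisVec : Fin 8 → Space :=
  ![vec 0 1 1, vec 0 1 (-1), vec 0 1 (3/4), vec 0 (3/4) (-1),
    vec (1/4) 1 (3/4), vec (-1/4) (3/4) (-1), vec (1/4) (-1) (-3/4), vec (-1/4) (-3/4) 1]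

/-- Linear coordinates transverse to the axes. -/
noncomputable def coord : Fin 8 → Space →ₗ[ℝ] ℝ × ℝ :=
  ![(form 1 0 0).prod (form 0 (-1) 1),
    (form (-1) 0 0).prod (form 0 1 1),
    (form 1 0 0).prod (form 0 (-3/4) 1),
    (form (-1) 0 0).prod (form 0 1 (3/4)),
    (form 0 (-3/4) 1).prod (form 1 (-1/4) 0),
    (form 0 1 (3/4)).prod (form (-1) 0 (1/4)),
    (form 0 (3/4) (-1)).prod (form 1 (1/4) 0),
    (form 0 (-1) (-3/4)).prod (form (-1) 0 (-1/4))]

/-- The bases, in coordinates. -/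
noncomputable def baseSet : Fin 8 → Set (ℝ × ℝ) :=
  ![capBase, capBase, stripBase, stripBase, cornerBase, cornerBase, cornerBase, cornerBase]

/-- Upper bounds for the areas of the bases, in coordinates. -/
noncomputable def baseBound : Fin 8 → ℝ :=
  ![25/256, 25/256, 55/128, 55/128, 657721/2985984, 657721/2985984, 657721/2985984, 657721/2985984]

/-- The shadow figures, in coordinates. -/
noncomputable def shadowSet : Fin 8 → Set (ℝ × ℝ) :=
  ![capShadow, capShadow, stripShadow, stripShadow,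
    cornerShadow, cornerShadow, cornerShadow, cornerShadow]

/-- Membership in the tetrahedron of a point given by coordinates. -/
def InTetra (a b c : ℝ) : Prop :=
  a + b + c ≤ 1 ∧ a - b - c ≤ 1 ∧ -a + b - c ≤ 1 ∧ -a - b + c ≤ 1

lemma vec_mem {a b c : ℝ} (h : InTetra a b c) : vec a b c ∈ tetra := by
  simpa [tetra, InTetra] using h

lemma covered (x : Space) (hx : x ∈ tetra) : ∃ i, coord i x ∈ baseSet i := by
  obtain ⟨h1, h2, h3, h4⟩ := hx
  rcases le_total (x 0) 0 with hs | hs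
  · rcases le_total (x 0) (-11/16) with hb | hb
    · exact ⟨0, by simp [coord, baseSet, capBase, trap]; refine ⟨?_, ?_, ?_, ?_⟩ <;> linarith⟩
    rcases le_total (x 2 - 3/4 * x 1) (-5/16) with hw | hw
    · rcases le_total (x 0 - 1/4 * x 1) (1/18 + 1/8 * (x 2 - 3/4 * x 1)) with ha | ha
      · exact ⟨4, by simp [coord, baseSet, cornerBase, trap]; refine ⟨?_, ?_, ?_, ?_⟩ <;> linarith⟩
      · exact ⟨5, by simp [coord, baseSet, cornerBase, trap]; refine ⟨?_, ?_, ?_, ?_⟩ <;> linarith⟩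
    rcases le_total (x 2 - 3/4 * x 1) (5/16) with hw' | hw'
    · exact ⟨2, by simp [coord, baseSet, stripBase, trap]; refine ⟨?_, ?_, ?_, ?_⟩ <;> linarith⟩
    rcases le_total (x 0 + 1/4 * x 1) (1/18 + 1/8 * (3/4 * x 1 - x 2)) with ha | ha
    · exact ⟨6, by simp [coord, baseSet, cornerBase, trap]; refine ⟨?_, ?_, ?_, ?_⟩ <;> linarith⟩
    · exact ⟨7, by simp [coord, baseSet, cornerBase, trap]; refine ⟨?_, ?_, ?_, ?_⟩ <;> linarith⟩
  · rcases le_total (11/16) (x 0) with hb | hb
    · exact ⟨1, by simp [coord, baseSet, capBase, trap]; refine ⟨?_, ?_, ?_, ?_⟩ <;> linarith⟩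
    rcases le_total (x 1 + 3/4 * x 2) (-5/16) with hw | hw
    · rcases le_total (-x 0 + 1/4 * x 2) (1/18 + 1/8 * (x 1 + 3/4 * x 2)) with ha | ha
      · exact ⟨5, by simp [coord, baseSet, cornerBase, trap]; refine ⟨?_, ?_, ?_, ?_⟩ <;> linarith⟩
      · exact ⟨6, by simp [coord, baseSet, cornerBase, trap]; refine ⟨?_, ?_, ?_, ?_⟩ <;> linarith⟩
    rcases le_total (x 1 + 3/4 * x 2) (5/16) with hw' | hw'
    · exact ⟨3, by simp [coord, baseSet, stripBase, trap]; refine ⟨?_, ?_, ?_, ?_⟩ <;> linarith⟩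
    rcases le_total (-x 0 - 1/4 * x 2) (1/18 + 1/8 * (-x 1 - 3/4 * x 2)) with ha | ha
    · exact ⟨7, by simp [coord, baseSet, cornerBase, trap]; refine ⟨?_, ?_, ?_, ?_⟩ <;> linarith⟩
    · exact ⟨4, by simp [coord, baseSet, cornerBase, trap]; refine ⟨?_, ?_, ?_, ?_⟩ <;> linarith⟩

lemma cap_preimage {a b : ℝ} (h : (a, b) ∈ capShadow) :
    InTetra a (-b/2) (b/2) ∧ InTetra (-a) (b/2) (b/2) := by
  simp [capShadow, trap] at h
  obtain ⟨h1, h2, h3, h4⟩ := h
  refine ⟨⟨?_, ?_, ?_, ?_⟩, ?_, ?_, ?_, ?_⟩ <;> linarith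

lemma strip_preimage {a b : ℝ} (h : (a, b) ∈ stripShadow) :
    ∃ y z : ℝ, z - 3/4 * y = b ∧ InTetra a y z ∧ InTetra (-a) z (-y) := by
  simp [stripShadow, trap] at h
  obtain ⟨h1, h2, h3, h4⟩ := h
  have hD : 0 < 1 + 3/4 * a := by linarith
  set t := b / (1 + 3/4 * a) with ht
  have hb : t * (1 + 3/4 * a) = b := div_mul_cancel₀ _ hD.ne'
  have t1 : -1 ≤ t := by rw [ht, le_div_iff₀ hD]; linarith
  have t2 : t ≤ 1 := by rw [ht, div_le_iff₀ hD]; linarith
  have p1 : 0 ≤ (1 - t) * (1 - a) := mul_nonneg (by linarith) (by linarith)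
  have p2 : 0 ≤ (1 + t) * (1 - a) := mul_nonneg (by linarith) (by linarith)
  have p3 : 0 ≤ (1 - t) * (1 + a) := mul_nonneg (by linarith) (by linarith)
  have p4 : 0 ≤ (1 + t) * (1 + a) := mul_nonneg (by linarith) (by linarith)
  refine ⟨-(a * t), t, by linarith, ⟨?_, ?_, ?_, ?_⟩, ?_, ?_, ?_, ?_⟩ <;> nlinarith

lemma corner_preimage {a b : ℝ} (h : (a, b) ∈ cornerShadow) :
    ∃ x y z : ℝ, z - 3/4 * y = a ∧ x - 1/4 * y = b ∧ InTetra x y z := by
  refine ⟨b + (1 - a - b) / 8, (1 - a - b) / 2, a + 3 * (1 - a - b) / 8, by ring, by ring, ?_⟩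
  simp [cornerShadow, trap] at h
  rcases h with ⟨h1, h2, h3, h4⟩ | ⟨h1, h2, h3, h4⟩ <;> refine ⟨?_, ?_, ?_, ?_⟩ <;> linarith

lemma shadow_subset (i : Fin 8) : shadowSet i ⊆ coord i '' tetra := by
  rintro ⟨a, b⟩ h
  fin_cases i <;> simp [shadowSet] at h
  · exact ⟨vec a (-b/2) (b/2), vec_mem (cap_preimage h).1, by simp [coord]; ring⟩
  · exact ⟨vec (-a) (b/2) (b/2), vec_mem (cap_preimage h).2, by simp [coord]⟩
  · obtain ⟨y, z, e, h1, -⟩ := strip_preimage h
    exact ⟨vec a y z, vec_mem h1, by simp [coord]; linarith⟩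
  · obtain ⟨y, z, e, -, h2⟩ := strip_preimage h
    exact ⟨vec (-a) z (-y), vec_mem h2, by simp [coord]; linarith⟩
  · obtain ⟨x, y, z, e, e', h⟩ := corner_preimage h
    exact ⟨vec x y z, vec_mem h, by simp [coord]; constructor <;> linarith⟩
  · obtain ⟨x, y, z, e, e', h1, h2, h3, h4⟩ := corner_preimage h
    exact ⟨vec (-x) z (-y), vec_mem ⟨by linarith, by linarith, by linarith, by linarith⟩,
      by simp [coord]; constructor <;> linarith⟩
  · obtain ⟨x, y, z, e, e', h1, h2, h3, h4⟩ := corner_preimage h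
    exact ⟨vec x (-y) (-z), vec_mem ⟨by linarith, by linarith, by linarith, by linarith⟩,
      by simp [coord]; constructor <;> linarith⟩
  · obtain ⟨x, y, z, e, e', h1, h2, h3, h4⟩ := corner_preimage h
    exact ⟨vec (-x) (-z) y, vec_mem ⟨by linarith, by linarith, by linarith, by linarith⟩,
      by simp [coord]; constructor <;> linarith⟩

lemma axisVec_ne_zero (i : Fin 8) : axisVec i ≠ 0 := by
  intro h
  have h1 := congrArg (fun v : Space => v 1) h
  have h2 := congrArg (fun v : Space => v 2) h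
  fin_cases i <;> simp [axisVec] at h1 h2

lemma coord_axisVec (i : Fin 8) : coord i (axisVec i) = 0 := by
  fin_cases i <;> simp [coord, axisVec] <;> norm_num

lemma coord_ker (i : Fin 8) (x : Space) (h : coord i x = 0) : ∃ c : ℝ, x = c • axisVec i := by
  fin_cases i <;> simp [coord] at h <;> obtain ⟨ha, hb⟩ := h
  · exact ⟨x 1, by ext j; fin_cases j <;> simp [axisVec] <;> linarith⟩
  · exact ⟨x 1, by ext j; fin_cases j <;> simp [axisVec] <;> linarith⟩
  · exact ⟨x 1, by ext j; fin_cases j <;> simp [axisVec] <;> linarith⟩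
  · exact ⟨-x 2, by ext j; fin_cases j <;> simp [axisVec] <;> linarith⟩
  · exact ⟨x 1, by ext j; fin_cases j <;> simp [axisVec] <;> linarith⟩
  · exact ⟨-x 2, by ext j; fin_cases j <;> simp [axisVec] <;> linarith⟩
  · exact ⟨-x 1, by ext j; fin_cases j <;> simp [axisVec] <;> linarith⟩
  · exact ⟨x 2, by ext j; fin_cases j <;> simp [axisVec] <;> linarith⟩

lemma base_volume (i : Fin 8) : volume (baseSet i) ≤ ENNReal.ofReal (baseBound i) := by
  fin_cases i <;> first
    | exact volume_capBase | exact volume_stripBase | exact volume_cornerBase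

lemma shadow_volume (i : Fin 8) : 4 ≤ volume (shadowSet i) := by
  fin_cases i <;> first
    | exact volume_capShadow | exact volume_stripShadow | exact volume_cornerShadow

lemma base_measurable (i : Fin 8) : MeasurableSet (baseSet i) := by
  fin_cases i <;> exact measurableSet_trap ..

end Vale.Agent.P243.Half
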