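import Mathlib

/-
Planar areas of bases and shadows, compared in linear coordinates.
-/

namespace Vale.Agent.P243.Half

open MeasureTheory Set
open scoped ENNReal

section General

variable {V : Type} [NormedAddCommGroup V] [InnerProductSpace ℝ V]

/-- The hyperplane through the origin orthogonal to `u`. -/
noncomputable def perpOf (u : V) : Submodule ℝ V := (ℝ ∙ u)ᗮ

variable [FiniteDimensional ℝ V]

/-- Orthogonal projection onto `perpOf u`. -/
noncomputable def projOf (u x : V) : perpOf u := (ℝ ∙ u)ᗮ.orthogonalProjectionOnto x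

variable [MeasurableSpace V] [BorelSpace V]

/-- Lebesgue measure in `perpOf u`. -/
noncomputable def areaOf (u : V) (B : Set (perpOf u)) : ℝ≥0∞ := volume B

end General

/-- Euclidean three-space. -/
abbrev Space : Type := EuclideanSpace ℝ (Fin 3)

/-- The plane through the origin orthogonal to `u`. -/
noncomputable def perp (u : Space) : Submodule ℝ Space := perpOf u

/-- Orthogonal projection onto the plane `perp u`. -/
noncomputable def proj (u x : Space) : perp u := projOf u x

/-- Planar Lebesgue measure on `perp u`. -/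
noncomputable def area (u : Space) (B : Set (perp u)) : ℝ≥0∞ := areaOf u B

/-- Area of the orthogonal projection of `K` along `u`. -/
noncomputable def shadow (u : Space) (K : Set Space) : ℝ≥0∞ := area u (proj u '' K)

/-- The directionwise relative area of a family of cylinders with respect to `K`. -/
noncomputable def relativeArea {m : ℕ} (K : Set Space) (u : Fin m → Space)
    (B : ∀ i, Set (perp (u i))) : ℝ≥0∞ :=
  ∑ i, area (u i) (B i) / shadow (u i) K

/-- The union of the cylinders. -/
def cylinderUnion {m : ℕ} (u : Fin m → Space) (B : ∀ i, Set (perp (u i))) : Set Space :=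
  {x | ∃ i, proj (u i) x ∈ B i}

/-- The unit vector in direction `v`. -/
noncomputable def unitVec (v : Space) : Space := ‖v‖⁻¹ • v

lemma norm_unitVec {v : Space} (hv : v ≠ 0) : ‖unitVec v‖ = 1 := by
  rw [unitVec, norm_smul, norm_inv, norm_norm, inv_mul_cancel₀ (norm_ne_zero_iff.mpr hv)]

lemma coord_proj (φ : Space →ₗ[ℝ] ℝ × ℝ) (u x : Space) (hu : φ u = 0) :
    φ (proj u x : Space) = φ x := by
  have h : x - (proj u x : Space) ∈ (ℝ ∙ u) := by
    have := (ℝ ∙ u)ᗮ.sub_starProjection_mem_orthogonal x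
    rw [Submodule.orthogonal_orthogonal] at this
    exact this
  obtain ⟨c, hc⟩ := Submodule.mem_span_singleton.1 h
  have := congrArg φ hc
  rw [map_smul, hu, smul_zero, map_sub] at this
  exact (sub_eq_zero.1 this.symm).symm

lemma exists_scale (φ : Space →ₗ[ℝ] ℝ × ℝ) (u : Space) (hu : ‖u‖ = 1)
    (hker : ∀ x, φ x = 0 → ∃ c : ℝ, x = c • u) :
    ∃ c : ℝ≥0∞, c ≠ 0 ∧ c ≠ ∞ ∧
      (∀ A : Set (ℝ × ℝ), area u {y | φ (y : Space) ∈ A} = c * volume A) ∧
      (∀ A : Set (ℝ × ℝ), MeasurableSet A → MeasurableSet {y : perp u | φ (y : Space) ∈ A}) := by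
  have hu0 : u ≠ 0 := by intro h; simp [h] at hu
  set ψ : perp u →ₗ[ℝ] ℝ × ℝ := φ.comp (perp u).subtype with hψ
  have hinj : Function.Injective ψ := by
    rw [← LinearMap.ker_eq_bot, Submodule.eq_bot_iff]
    intro y hy
    obtain ⟨c, hc⟩ := hker (y : Space) hy
    have h0 : inner ℝ u (y : Space) = (0:ℝ) :=
      Submodule.mem_orthogonal_singleton_iff_inner_right.1 y.2
    rw [hc, real_inner_smul_right, real_inner_self_eq_norm_sq, hu] at h0
    have hc0 : c = 0 := by linarith [h0]
    ext1
    simp [hc, hc0]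
  have hdim : Module.finrank ℝ (perp u) = Module.finrank ℝ (ℝ × ℝ) := by
    have h1 := Submodule.finrank_add_finrank_orthogonal (ℝ ∙ u)
    rw [finrank_span_singleton hu0, finrank_euclideanSpace_fin] at h1
    show Module.finrank ℝ (ℝ ∙ u)ᗮ = _
    rw [Module.finrank_prod, Module.finrank_self]
    omega
  set e : perp u ≃L[ℝ] ℝ × ℝ :=
    (LinearMap.linearEquivOfInjective ψ hinj hdim).toContinuousLinearEquiv with he
  have hcoe : ∀ y : perp u, e y = φ (y : Space) := fun y => rfl
  set μ : Measure (ℝ × ℝ) := (volume : Measure (perp u)).map e with hμ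
  have : μ.IsAddHaarMeasure := e.isAddHaarMeasure_map volume
  have key := Measure.isAddLeftInvariant_eq_smul μ (volume : Measure (ℝ × ℝ))
  have hpos := Measure.addHaarScalarFactor_pos_of_isAddHaarMeasure μ (volume : Measure (ℝ × ℝ))
  refine ⟨(μ.addHaarScalarFactor (volume : Measure (ℝ × ℝ)) : ℝ≥0∞), by exact_mod_cast hpos.ne',
    ENNReal.coe_ne_top, fun A => ?_, fun A hA => ?_⟩
  · have h1 : area u {y | φ (y : Space) ∈ A} = μ A := by
      rw [hμ, show (e : perp u → ℝ × ℝ) = e.toHomeomorph.toMeasurableEquiv from rfl,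
        MeasurableEquiv.map_apply]
      rfl
    rw [h1]
    refine (congrArg (fun m : Measure (ℝ × ℝ) => m A) key).trans ?_
    rfl
  · exact (φ.continuous_of_finiteDimensional.comp continuous_subtype_val).measurable hA

lemma ratio_le (φ : Space →ₗ[ℝ] ℝ × ℝ) (u : Space) (hu : ‖u‖ = 1) (hφu : φ u = 0)
    (hker : ∀ x, φ x = 0 → ∃ c : ℝ, x = c • u) (A S : Set (ℝ × ℝ)) (K : Set Space)
    {a : ℝ} (hA : volume A ≤ ENNReal.ofReal a) (hS : 4 ≤ volume S) (hSK : S ⊆ φ '' K)
    (hmeas : MeasurableSet A) :
    MeasurableSet {y : perp u | φ (y : Space) ∈ A} ∧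
    area u {y | φ (y : Space) ∈ A} < ∞ ∧
    area u {y | φ (y : Space) ∈ A} / shadow u K ≤ ENNReal.ofReal (a / 4) := by
  obtain ⟨c, hc0, hctop, harea, hm⟩ := exists_scale φ u hu hker
  have hshadow : c * 4 ≤ shadow u K := by
    refine (mul_le_mul' le_rfl hS).trans ?_
    rw [← harea]
    refine measure_mono fun y hy => ?_
    obtain ⟨x, hx, hxy⟩ := hSK hy
    refine ⟨x, hx, ?_⟩
    obtain ⟨c', hc'⟩ := hker ((proj u x : Space) - (y : Space)) (by
      rw [map_sub, coord_proj φ u x hφu, hxy, sub_self])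
    have h0 : inner ℝ u ((proj u x : Space) - (y : Space)) = (0:ℝ) := by
      rw [inner_sub_right,
        Submodule.mem_orthogonal_singleton_iff_inner_right.1 (proj u x).2,
        Submodule.mem_orthogonal_singleton_iff_inner_right.1 y.2, sub_zero]
    rw [hc', real_inner_smul_right, real_inner_self_eq_norm_sq, hu] at h0
    have : c' = 0 := by linarith [h0]
    rw [this, zero_smul, sub_eq_zero] at hc'
    exact Subtype.ext hc'
  have hup : area u {y | φ (y : Space) ∈ A} ≤ c * ENNReal.ofReal a := by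
    rw [harea]; exact mul_le_mul' le_rfl hA
  refine ⟨hm A hmeas, hup.trans_lt (ENNReal.mul_lt_top hctop.lt_top ENNReal.ofReal_lt_top), ?_⟩
  refine (ENNReal.div_le_div hup hshadow).trans ?_
  rw [ENNReal.mul_div_mul_left _ _ hc0 hctop, ENNReal.ofReal_div_of_pos (by norm_num : (0:ℝ) < 4)]
  simp

end Vale.Agent.P243.Half
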