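import Vale.Agent.P243.Half.Plane

/-
The tetrahedron, the three plane figures used as bases and their areas.
-/

namespace Vale.Agent.P243.Half

open MeasureTheory Set
open scoped ENNReal

/-- The regular tetrahedron with vertices (-1,-1,-1), (1,1,-1), (1,-1,1), (-1,1,1). -/
def tetra : Set Space :=
  {x | x 0 + x 1 + x 2 ≤ 1 ∧ x 0 - x 1 - x 2 ≤ 1 ∧ -x 0 + x 1 - x 2 ≤ 1 ∧ -x 0 - x 1 + x 2 ≤ 1}

/-- The points between two affine graphs over an interval. -/
def trap (l r c0 c1 e0 e1 : ℝ) : Set (ℝ × ℝ) :=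
  {p | l ≤ p.1 ∧ p.1 ≤ r ∧ c0 + c1 * p.1 ≤ p.2 ∧ p.2 ≤ e0 + e1 * p.1}

lemma measurableSet_trap (l r c0 c1 e0 e1 : ℝ) : MeasurableSet (trap l r c0 c1 e0 e1) := by
  apply IsClosed.measurableSet
  exact (isClosed_le continuous_const continuous_fst).inter <|
    (isClosed_le continuous_fst continuous_const).inter <|
    (isClosed_le (by fun_prop) continuous_snd).inter (isClosed_le continuous_snd (by fun_prop))

lemma volume_trap {l r c0 c1 e0 e1 : ℝ} (hlr : l ≤ r)
    (hl : c0 + c1 * l ≤ e0 + e1 * l) (hr : c0 + c1 * r ≤ e0 + e1 * r) :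
    volume (trap l r c0 c1 e0 e1) =
      ENNReal.ofReal ((r - l) * (e0 - c0 + (e1 - c1) * (l + r) / 2)) := by
  rw [Measure.volume_eq_prod, Measure.prod_apply (measurableSet_trap ..)]
  have h : ∀ x : ℝ, volume (Prod.mk x ⁻¹' trap l r c0 c1 e0 e1) =
      (Icc l r).indicator (fun x => ENNReal.ofReal ((e0 + e1 * x) - (c0 + c1 * x))) x := by
    intro x
    by_cases hx : x ∈ Icc l r
    · rw [indicator_of_mem hx, ← Real.volume_Icc]
      congr 1
      ext y
      simp [trap, hx.1, hx.2]
    · rw [indicator_of_notMem hx]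
      have : Prod.mk x ⁻¹' trap l r c0 c1 e0 e1 = ∅ := by
        ext y
        simp only [trap, mem_preimage, mem_ofPred_eq, mem_empty_iff_false, iff_false]
        exact fun h => hx ⟨h.1, h.2.1⟩
      simp [this]
  simp only [h]
  rw [lintegral_indicator measurableSet_Icc, ← ofReal_integral_eq_lintegral_ofReal]
  · congr 1
    rw [integral_Icc_eq_integral_Ioc, ← intervalIntegral.integral_of_le hlr]
    have : ∀ x ∈ uIcc l r, HasDerivAt (fun x => (e0 - c0) * x + (e1 - c1) * x ^ 2 / 2)
        ((e0 + e1 * x) - (c0 + c1 * x)) x := by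
      intro x _
      have := ((hasDerivAt_id x).const_mul (e0 - c0)).add
        (((hasDerivAt_pow 2 x).const_mul (e1 - c1)).div_const 2)
      exact this.congr_deriv (by push_cast; ring)
    rw [intervalIntegral.integral_eq_sub_of_hasDerivAt this
      ((by fun_prop : Continuous fun x => (e0 + e1 * x) - (c0 + c1 * x)).intervalIntegrable ..)]
    ring
  · exact (by fun_prop : Continuous fun x => (e0 + e1 * x) - (c0 + c1 * x)).integrableOn_Icc
  · refine ae_restrict_of_forall_mem measurableSet_Icc fun x hx => ?_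
    show (0:ℝ) ≤ _
    rcases eq_or_lt_of_le hlr with h | h
    · subst h
      obtain rfl : x = l := le_antisymm hx.2 hx.1
      linarith
    · nlinarith [mul_nonneg (sub_nonneg.2 hx.1) (sub_nonneg.2 hr),
        mul_nonneg (sub_nonneg.2 hx.2) (sub_nonneg.2 hl)]

/-- Base of the cap at an edge. -/
def capBase : Set (ℝ × ℝ) := trap (-1) (-11/16) (-1) (-1) 1 1

/-- Base of the strip. -/
def stripBase : Set (ℝ × ℝ) := trap (-11/16) 0 (-5/16) 0 (5/16) 0

/-- Base of a corner cylinder. -/
def cornerBase : Set (ℝ × ℝ) := trap (-76/81) (-5/16) (-1) (-1) (1/18) (1/8)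

/-- The shadow figure along an edge. -/
def capShadow : Set (ℝ × ℝ) := trap (-1) 1 (-1) (-1) 1 1

/-- The shadow figure of the strip direction. -/
def stripShadow : Set (ℝ × ℝ) := trap (-1) 1 (-1) (-3/4) 1 (3/4)

/-- The shadow figure of the corner direction. -/
def cornerShadow : Set (ℝ × ℝ) :=
  trap (-7/4) (1/4) (-1) (-1) 1 (1/7) ∪ trap (1/4) (7/4) (-5/3) (5/3) 1 (1/7)

lemma volume_capBase : volume capBase ≤ ENNReal.ofReal (25/256) := by
  rw [capBase, volume_trap (by norm_num) (by norm_num) (by norm_num)]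
  norm_num

lemma volume_stripBase : volume stripBase ≤ ENNReal.ofReal (55/128) := by
  rw [stripBase, volume_trap (by norm_num) (by norm_num) (by norm_num)]
  norm_num

lemma volume_cornerBase : volume cornerBase ≤ ENNReal.ofReal (657721/2985984) := by
  rw [cornerBase, volume_trap (by norm_num) (by norm_num) (by norm_num)]
  norm_num

lemma volume_capShadow : 4 ≤ volume capShadow := by
  rw [capShadow, volume_trap (by norm_num) (by norm_num) (by norm_num)]
  norm_num

lemma volume_stripShadow : 4 ≤ volume stripShadow := by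
  rw [stripShadow, volume_trap (by norm_num) (by norm_num) (by norm_num)]
  norm_num

lemma volume_cornerShadow : 4 ≤ volume cornerShadow := by
  have hnull : volume (trap (-7/4) (1/4) (-1) (-1) 1 (1/7) ∩
      trap (1/4) (7/4) (-5/3) (5/3) 1 (1/7)) = 0 := by
    refine measure_mono_null (t := ({1/4} : Set ℝ) ×ˢ (univ : Set ℝ)) ?_ ?_
    · rintro ⟨a, b⟩ ⟨⟨_, h1, _⟩, h2, _⟩
      exact ⟨le_antisymm h1 h2, mem_univ _⟩
    · rw [Measure.volume_eq_prod, Measure.prod_prod]
      simp
  rw [cornerShadow, measure_union₀ (measurableSet_trap ..).nullMeasurableSet hnull,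
    volume_trap (by norm_num) (by norm_num) (by norm_num),
    volume_trap (by norm_num) (by norm_num) (by norm_num), ← ENNReal.ofReal_add (by norm_num) (by norm_num)]
  norm_num

end Vale.Agent.P243.Half
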